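import Mathlib.GroupTheory.FinitelyPresentedGroup
import Vale.Agent.N186.Final

/-! The amalgam of `N186` for arbitrary finitely generated factors. -/

set_option linter.all false

namespace Vale.Agent.N194

open Monoid Vale.Agent.N186 Vale.Agent.P186

theorem linPres_coprod {κ : Type} [Fintype κ] {N : κ → Type} [∀ k, Group (N k)]
    (P : ∀ k, LinPres (N k)) : Nonempty (LinPres (CoprodI N)) :=
  linPres_of_dehn P (MonoidHom.id _) Function.surjective_id ∅ Set.finite_empty (by simp) (by simp)
    fun D hD hne h => absurd h (hD.ev_ne hne)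

theorem fp_of_linPres {Γ : Type} [Group Γ] (P : LinPres Γ) : Group.IsFinitelyPresented Γ := by
  letI := P.fin
  refine Group.IsFinitelyPresented.of_surjective (FreeGroup.lift P.gen) P.surj
    ⟨P.R, P.finR, le_antisymm (Subgroup.normalClosure_le_normal fun r hr => P.rel r hr) ?_⟩
  intro u hu
  obtain ⟨u, rfl⟩ := Quot.exists_rep u
  obtain ⟨j, _, h⟩ := P.area u hu
  have h2 := ar_normal h
  simp only [inv_one, mul_one] at h2
  exact h2

theorem fp_coprod {κ : Type} [Finite κ] {N : κ → Type} [∀ k, Group (N k)]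
    (h : ∀ k, Group.IsFinitelyPresented (N k)) : Group.IsFinitelyPresented (CoprodI N) := by
  choose n φ hφ R hR hker using fun k => (h k).out
  let emb : ∀ k, FreeGroup (Fin (n k)) →* FreeGroup (Σ k, Fin (n k)) :=
    fun k => FreeGroup.map fun a => ⟨k, a⟩
  let Φ : FreeGroup (Σ k, Fin (n k)) →* CoprodI N :=
    FreeGroup.lift fun l => CoprodI.of (φ l.1 (FreeGroup.of l.2))
  have hΦ : ∀ k u, Φ (emb k u) = CoprodI.of (φ k u) := by
    intro k u
    have : Φ.comp (emb k) = (CoprodI.of : N k →* CoprodI N).comp (φ k) := by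
      ext a
      simp [Φ, emb]
    exact DFunLike.congr_fun this u
  let T : Subgroup (FreeGroup (Σ k, Fin (n k))) := Subgroup.normalClosure (⋃ k, emb k '' R k)
  let q := QuotientGroup.mk' T
  have hq : ∀ k, (φ k).ker ≤ (q.comp (emb k)).ker := by
    intro k
    rw [← hker k]
    refine Subgroup.normalClosure_le_normal fun r hr => ?_
    exact (QuotientGroup.eq_one_iff _).2
      (Subgroup.subset_normalClosure (Set.mem_iUnion.2 ⟨k, r, hr, rfl⟩))
  let ψ : CoprodI N →* FreeGroup (Σ k, Fin (n k)) ⧸ T := CoprodI.lift fun k =>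
    (φ k).liftOfRightInverse (Function.surjInv (hφ k)) (Function.rightInverse_surjInv (hφ k))
      ⟨q.comp (emb k), hq k⟩
  have hψ : ψ.comp Φ = q := by
    ext ⟨k, a⟩
    have e1 : (FreeGroup.of ⟨k, a⟩ : FreeGroup (Σ k, Fin (n k))) = emb k (FreeGroup.of a) := by
      simp [emb]
    show ψ (Φ (FreeGroup.of ⟨k, a⟩)) = q (FreeGroup.of ⟨k, a⟩)
    rw [e1, hΦ, CoprodI.lift_of, MonoidHom.liftOfRightInverse_comp_apply]
    rfl
  refine Group.IsFinitelyPresented.of_surjective Φ ?_
    ⟨⋃ k, emb k '' R k, Set.finite_iUnion fun k => (hR k).image _, le_antisymm ?_ ?_⟩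
  · intro g
    show g ∈ Φ.range
    induction g using CoprodI.induction_on with
    | one => exact one_mem _
    | of k a =>
      obtain ⟨u, rfl⟩ := hφ k a
      exact ⟨emb k u, hΦ k u⟩
    | mul a b ha hb => exact mul_mem ha hb
  · refine Subgroup.normalClosure_le_normal fun r hr => ?_
    obtain ⟨k, r', hr', rfl⟩ := Set.mem_iUnion.1 hr
    have h1 : φ k r' = 1 := by
      rw [← MonoidHom.mem_ker, ← hker k]
      exact Subgroup.subset_normalClosure hr'
    show Φ (emb k r') = 1
    rw [hΦ, h1, map_one]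
  · intro u hu
    have h1 : q u = 1 := by rw [← hψ, MonoidHom.comp_apply, MonoidHom.mem_ker.1 hu, map_one]
    exact (QuotientGroup.eq_one_iff _).1 h1

section amalgam

variable {ι : Type} {M : ι → Type} [∀ i, Group (M i)]

theorem nf_length_le (L : List (Σ i, M i)) : (nf (ev L)).length ≤ L.length := by
  induction L with
  | nil => rw [ev_nil, nf_one]
  | cons s L ih =>
    have hr := red_nf (ev L)
    rw [ev_cons, ← ev_nf (ev L), List.length_cons]
    generalize nf (ev L) = l at ih hr
    obtain ⟨i, g⟩ := s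
    by_cases hg : g = 1
    · subst hg
      rw [map_one, one_mul, nf_ev hr]
      omega
    cases l with
    | nil =>
      rw [← ev_cons ⟨i, g⟩, nf_ev (red_singleton.2 hg)]
      simp
    | cons t l =>
      obtain ⟨j, g'⟩ := t
      rw [List.length_cons] at ih
      by_cases hij : i = j
      · subst hij
        rw [ev_cons, ← mul_assoc, ← map_mul]
        by_cases h1 : g * g' = 1
        · dsimp only
          rw [h1, map_one, one_mul, nf_ev hr.tail]
          omega
        · rw [red_cons] at hr
          have hr2 : Red (⟨i, g * g'⟩ :: l) := red_cons.2 ⟨h1, hr.2.1, hr.2.2⟩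
          rw [← ev_cons ⟨i, g * g'⟩, nf_ev hr2, List.length_cons]
          omega
      · rw [← ev_cons ⟨i, g⟩, nf_ev (red_cons.2 ⟨hg, hr, ?_⟩)]
        · simp only [List.length_cons]
          omega
        · intro b hb
          simp only [List.head?_cons, Option.mem_def, Option.some.injEq] at hb
          subst hb
          exact hij

theorem ker_proj {Λ : Type} [Finite Λ] (S : Bool → Sys M Λ) :
    (proj S).ker.IsFinitelyNormallyGenerated := by
  refine ⟨(fun m : List (Σ k : Bool × ι, M k.2) × List (Σ k : Bool × ι, M k.2) =>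
      ev (M := fun k : Bool × ι => M k.2) m.1 * (ev (M := fun k : Bool × ι => M k.2) m.2)⁻¹) ''
      Moves S, (moves_finite S).image _, le_antisymm ?_ ?_⟩
  · refine Subgroup.normalClosure_le_normal ?_
    rintro _ ⟨m, hm, rfl⟩
    show proj S _ = 1
    rw [map_mul, map_inv, moves_val S m hm, mul_inv_cancel]
  · have key : ∀ (n : ℕ) (a : CoprodI fun k : Bool × ι => M k.2), (nf a).length ≤ n →
        proj S a = 1 → a ∈ Subgroup.normalClosure
          ((fun m : List (Σ k : Bool × ι, M k.2) × List (Σ k : Bool × ι, M k.2) =>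
            ev (M := fun k : Bool × ι => M k.2) m.1 *
              (ev (M := fun k : Bool × ι => M k.2) m.2)⁻¹) '' Moves S) := by
      intro n
      induction n with
      | zero =>
        intro a ha _
        have : nf a = [] := List.length_eq_zero_iff.1 (Nat.le_zero.1 ha)
        rw [← ev_nf a, this]
        exact one_mem _
      | succ n ih =>
        intro a ha h1
        by_cases hne : nf a = []
        · rw [← ev_nf a, hne]
          exact one_mem _
        obtain ⟨m, hm, D₁, D₂, e⟩ := moves_dehn S (nf a) (red_nf a) hne (by rw [ev_nf, h1])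
        have e1 : a = ev (M := fun k : Bool × ι => M k.2) D₁ *
            (ev (M := fun k : Bool × ι => M k.2) m.1 *
              (ev (M := fun k : Bool × ι => M k.2) m.2)⁻¹) *
            (ev (M := fun k : Bool × ι => M k.2) D₁)⁻¹ *
            ev (M := fun k : Bool × ι => M k.2) (D₁ ++ m.2 ++ D₂) := by
          conv_lhs => rw [← ev_nf a, ← e]
          simp only [ev_append]
          group
        have l1 := moves_len S m hm
        have l2 := congrArg List.length e
        simp only [List.length_append] at l2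
        rw [e1]
        refine mul_mem (Subgroup.normalClosure_normal.conj_mem _
          (Subgroup.subset_normalClosure (Set.mem_image_of_mem _ hm)) _) (ih _ ?_ ?_)
        · have l4 := nf_length_le (M := fun k : Bool × ι => M k.2) (D₁ ++ m.2 ++ D₂)
          simp only [List.length_append] at l4
          omega
        rw [← ev_nf a, ← e] at h1
        simp only [ev_append, map_mul] at h1 ⊢
        rw [← moves_val S m hm]
        exact h1
    exact fun a ha => key _ a le_rfl ha

variable {i₀ i₁ : ι} (hne : i₀ ≠ i₁)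
  (x : M i₀) (y : M i₁) (hx : Function.Injective fun n : ℤ => x ^ n) (hy : y ≠ 1)

include hne hx hy in
theorem amalgam_fg [Fintype ι] (hfg : ∀ i, Group.FG (M i)) :
    ∃ (Γ : Type) (_ : Group Γ) (j : Bool → ∀ i, M i →* Γ), Group.FG Γ ∧
      ((∀ i, Group.IsFinitelyPresented (M i)) → Group.IsFinitelyPresented Γ) ∧
      ((∀ i, Nonempty (LinPres (M i))) → Nonempty (LinPres Γ)) ∧
      (∀ s i, Function.Injective (j s i)) ∧
      (∀ N : Subgroup Γ, N.Normal → (∀ s, j s i₀ x ∈ N ∧ j s i₁ y ∈ N) → N = ⊤) ∧
      ∀ g : Γ, IsOfFinOrder g → g = 1 ∨ ∃ s i a, IsConj (j s i a) g := by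
  classical
  choose T hT hTf using fun i => Group.fg_iff.1 (hfg i)
  haveI : ∀ i, Finite (T i) := fun i => (hTf i).to_subtype
  let tgt : Bool → (Bool × Σ i, T i) → Σ i, M i := fun s l =>
    if l.1 = s then ⟨l.2.1, l.2.2.1⟩ else ⟨i₀, 1⟩
  choose S hS using fun s => exists_sys hne x y hx hy (tgt s)
  have hgen : ∀ U : Subgroup (PO S), (∀ s i (a : T i), sd S s (CoprodI.of a.1) ∈ U) → U = ⊤ := by
    intro U hU
    have h3 : ∀ s i (a : M i), sd S s (CoprodI.of a) ∈ U := by
      intro s i a
      have : Subgroup.closure (T i) ≤ U.comap ((sd S s).comp CoprodI.of) := by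
        rw [Subgroup.closure_le]
        intro b hb
        exact hU s i ⟨b, hb⟩
      exact this (by rw [hT i]; trivial)
    rw [eq_top_iff]
    intro g _
    obtain ⟨a, rfl⟩ := proj_surj S g
    induction a using CoprodI.induction_on with
    | one => rw [map_one]; exact one_mem _
    | of k a => exact h3 k.1 k.2 a
    | mul a b ha hb => rw [map_mul]; exact mul_mem (ha trivial) (hb trivial)
  refine ⟨PO S, inferInstance, fun s i => (sd S s).comp CoprodI.of, ?_, ?_, ?_, ?_, ?_, ?_⟩
  · rw [Group.fg_iff]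
    refine ⟨Set.range fun p : Bool × Σ i, T i => sd S p.1 (CoprodI.of p.2.2.1), ?_,
      Set.finite_range _⟩
    exact hgen _ fun s i a => Subgroup.subset_closure ⟨(s, ⟨i, a⟩), rfl⟩
  · intro h
    haveI := fp_coprod (N := fun k : Bool × ι => M k.2) fun k => h k.2
    exact Group.IsFinitelyPresented.of_surjective (proj S) (proj_surj S) (ker_proj S)
  · intro h
    exact linPres_of_dehn (N := fun k : Bool × ι => M k.2) (fun k => (h k.2).some) (proj S)
      (proj_surj S) (Moves S) (moves_finite S) (moves_len S) (moves_val S) (moves_dehn S)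
  · intro s i
    exact (sd_inj S s).comp (CoprodI.of_injective i)
  · intro N hN h
    let q := QuotientGroup.mk' N
    have hq : ∀ g, q g = 1 ↔ g ∈ N := fun g => QuotientGroup.eq_one_iff g
    have h1 : ∀ s l, q (bs S (FreeGroup.mk [(l, true)])) =
        q (sd S s (CoprodI.of (tgt s l).2)) := by
      intro s l
      rw [← sd_z S s]
      exact hS s _ (q.comp (sd S s)) ((hq _).2 (h s).1) ((hq _).2 (h s).2) l
    refine hgen N fun s i a => (hq _).1 ?_
    have e1 := h1 s (s, ⟨i, a⟩)
    have e2 := h1 (!s) (s, ⟨i, a⟩)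
    have t1 : tgt s (s, ⟨i, a⟩) = ⟨i, a.1⟩ := if_pos rfl
    have t2 : tgt (!s) (s, ⟨i, a⟩) = ⟨i₀, 1⟩ := if_neg (by cases s <;> simp)
    rw [t1] at e1
    rw [t2, map_one, map_one, map_one] at e2
    exact e1.symm.trans e2
  · intro g hg
    rcases torsion_po S g hg with h | ⟨s, σ, h⟩
    · exact Or.inl h
    · exact Or.inr ⟨s, σ.1, σ.2, h⟩

end amalgam

theorem fg_of_hyp {G : Type} [Group G] (h : IsHyperbolicGroup G) : Group.FG G := by
  obtain ⟨T, hT, _⟩ := h
  exact ⟨⟨T, hT⟩⟩

/-- every finitely generated group embeds in a group which is normally generated by four copies of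
a given element of infinite order of a torsion-free hyperbolic group -/
theorem embed_fg (K G : Type) [Group K] [Group G] (hK : Group.FG K) (hG : IsHyperbolicGroup G)
    (htf : ∀ a : G, IsOfFinOrder a → a = 1) (g : G) (hg : g ≠ 1) :
    ∃ (H : Type) (_ : Group H) (j : K →* H) (j' : Bool × Bool → G →* H),
      Function.Injective j ∧ Group.FG H ∧ Infinite H ∧
      (Group.IsFinitelyPresented K → Group.IsFinitelyPresented H) ∧
      (IsHyperbolicGroup K → IsHyperbolicGroup H) ∧
      (∀ h : H, IsOfFinOrder h → ∃ a : K, orderOf a = orderOf h) ∧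
      ∀ N : Subgroup H, N.Normal → (∀ s, j' s g ∈ N) → N = ⊤ := by
  letI := famGroup K G
  have hg' : ¬ IsOfFinOrder g := fun h => hg (htf g h)
  obtain ⟨PG⟩ := linPres_of_hyp hG
  obtain ⟨Γ, _, j, h0, hfp, hlp, h1, h2, h3⟩ := amalgam_fg (M := Fam K G) (i₀ := some false)
    (i₁ := some true) (by simp) g g (injective_zpow_iff_not_isOfFinOrder.2 hg') hg
    (fun i => match i with
      | none => hK
      | some _ => fg_of_hyp hG)
  obtain ⟨H, _, e, hH⟩ : ∃ (H : Type) (_ : Group H) (_ : H ≃* Γ),
      IsHyperbolicGroup K → IsHyperbolicGroup H := by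
    by_cases hK' : IsHyperbolicGroup K
    · obtain ⟨PΓ⟩ := hlp fun i => match i with
        | none => linPres_of_hyp hK'
        | some _ => ⟨PG⟩
      obtain ⟨H, _, hH, ⟨e⟩⟩ := PΓ.exists_hyp
      exact ⟨H, inferInstance, e, fun _ => hH⟩
    · exact ⟨Γ, inferInstance, MulEquiv.refl Γ, fun h => absurd h hK'⟩
  refine ⟨H, inferInstance, e.symm.toMonoidHom.comp (j true none),
    fun s => e.symm.toMonoidHom.comp (j s.1 (some s.2)), e.symm.injective.comp (h1 _ _),
    Group.fg_of_surjective (f := e.symm.toMonoidHom) e.symm.surjective, ?_, ?_, hH, ?_, ?_⟩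
  · exact Infinite.of_injective (fun n : ℤ => e.symm (j true (some true) (g ^ n : G)))
      (e.symm.injective.comp ((h1 _ _).comp (injective_zpow_iff_not_isOfFinOrder.2 hg')))
  · intro h
    haveI := hfp fun i => match i with
      | none => h
      | some _ => fp_of_linPres PG
    exact Group.IsFinitelyPresented.equiv e.symm
  · intro h hh
    have hh' := e.toMonoidHom.isOfFinOrder hh
    rw [← e.orderOf_eq h]
    rcases h3 (e h) hh' with h4 | ⟨s, i, a, h4⟩
    · exact ⟨1, by rw [h4, orderOf_one, orderOf_one]⟩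
    · rcases i with _ | b
      · exact ⟨a, by rw [← orderOf_isConj h4, orderOf_injective _ (h1 s none)]; rfl⟩
      · have h6 : a = 1 := htf a ((h1 s _).isOfFinOrder_iff.1 (h4.symm.isOfFinOrder hh'))
        exact ⟨1, by rw [← orderOf_isConj h4, h6, map_one, orderOf_one, orderOf_one]⟩
  · intro N hN h
    have h4 := h2 (N.comap e.symm.toMonoidHom) (hN.comap _)
      fun s => ⟨h (s, false), h (s, true)⟩
    rw [eq_top_iff]
    intro a _
    have h5 : e a ∈ N.comap e.symm.toMonoidHom := by rw [h4]; trivial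
    simpa using h5

/-- one element in the normal closure of each of finitely many nontrivial elements -/
theorem one_element (G : Type) [Group G] (hG : IsHyperbolicGroup G)
    (htf : ∀ a : G, IsOfFinOrder a → a = 1) (g₀ : G) (hg₀ : g₀ ≠ 1) (F : List G)
    (hF : ∀ x ∈ F, x ≠ 1) :
    ∃ (G' : Type) (_ : Group G') (j : G →* G') (g : G'), IsHyperbolicGroup G' ∧
      (∀ a : G', IsOfFinOrder a → a = 1) ∧ Function.Injective j ∧ g ≠ 1 ∧
      ∀ N : Subgroup G', N.Normal → ∀ x ∈ F, j x ∈ N → g ∈ N := by
  induction F with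
  | nil => exact ⟨G, inferInstance, MonoidHom.id G, g₀, hG, htf, Function.injective_id, hg₀, by simp⟩
  | cons x F ih =>
    obtain ⟨G', _, j, g, h1, h2, h3, h4, h5⟩ := ih fun y hy => hF y (List.mem_cons_of_mem _ hy)
    obtain ⟨P⟩ := linPres_of_hyp h1
    obtain ⟨P'⟩ := linPres_coprod (N := fun _ : Bool => G') fun _ => P
    obtain ⟨H, _, hH, ⟨e⟩⟩ := P'.exists_hyp
    have hx : j x ≠ 1 := fun h => hF x (by simp) (h3 (by rw [h, map_one]))
    let o : Bool → G' →* CoprodI fun _ : Bool => G' := fun b =>
      CoprodI.of (M := fun _ : Bool => G') (i := b)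
    let l : List (Σ _ : Bool, G') := [⟨false, g⟩, ⟨true, g⟩, ⟨false, j x⟩, ⟨true, g⁻¹⟩,
      ⟨false, g⁻¹⟩, ⟨true, g⟩, ⟨false, (j x)⁻¹⟩, ⟨true, g⁻¹⟩]
    have hl : Red (M := fun _ : Bool => G') l := by
      constructor
      · simp [l, h4, hx]
      · simp [l]
    have el : ev (M := fun _ : Bool => G') l = o false g * (o true g * o false (j x) * (o true g)⁻¹) *
        (o false g)⁻¹ * (o true g * (o false (j x))⁻¹ * (o true g)⁻¹) := by
      simp [l, o, mul_assoc]
    refine ⟨H, inferInstance, e.symm.toMonoidHom.comp ((o false).comp j),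
      e.symm (ev (M := fun _ : Bool => G') l), hH, ?_,
      e.symm.injective.comp ((CoprodI.of_injective (M := fun _ : Bool => G') false).comp h3),
      ?_, ?_⟩
    · intro a ha
      have ha' := e.toMonoidHom.isOfFinOrder ha
      apply e.map_eq_one_iff.1
      rcases torsion_free_prod (e a) ha' with h | ⟨σ, h⟩
      · exact h
      · have h6 : σ.2 = 1 := h2 _ ((CoprodI.of_injective (M := fun _ : Bool => G')
          σ.1).isOfFinOrder_iff.1 (h.symm.isOfFinOrder ha'))
        rw [h6, map_one] at h
        exact isConj_one_right.1 h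
    · intro h
      exact hl.ev_ne (by simp [l]) (e.symm.map_eq_one_iff.1 h)
    · intro N hN y hy hyN
      have hN' := hN.comap e.symm.toMonoidHom
      show ev (M := fun _ : Bool => G') l ∈ N.comap e.symm.toMonoidHom
      rw [el]
      rcases List.mem_cons.1 hy with rfl | hy
      · have h6 : o false (j y) ∈ N.comap e.symm.toMonoidHom := hyN
        exact mul_mem (hN'.conj_mem _ (hN'.conj_mem _ h6 _) _) (hN'.conj_mem _ (inv_mem h6) _)
      · have h6 : o false g ∈ N.comap e.symm.toMonoidHom :=
          h5 ((N.comap e.symm.toMonoidHom).comap (o false)) (hN'.comap _) y hy hyN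
        have h7 := mul_mem h6
          (hN'.conj_mem _ (inv_mem h6) (o true g * o false (j x) * (o true g)⁻¹))
        have e2 : o false g * (o true g * o false (j x) * (o true g)⁻¹) * (o false g)⁻¹ *
            (o true g * (o false (j x))⁻¹ * (o true g)⁻¹) =
            o false g * (o true g * o false (j x) * (o true g)⁻¹ * (o false g)⁻¹ *
              (o true g * o false (j x) * (o true g)⁻¹)⁻¹) := by group
        rw [e2]
        exact h7

/-- a nontrivial finitely generated group has a simple quotient -/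
theorem exists_simple_quotient (H : Type) [Group H] (hH : Group.FG H) [Nontrivial H] :
    ∃ (S : Type) (_ : Group S) (f : H →* S), Function.Surjective f ∧ IsSimpleGroup S := by
  obtain ⟨T, hT, hTf⟩ := Group.fg_iff.1 hH
  obtain ⟨N, _, hN⟩ := zorn_le_nonempty₀ {N : Subgroup H | N.Normal ∧ N ≠ ⊤} (by
    intro c hc hch y hy
    have hd : DirectedOn (· ≤ ·) c := hch.directedOn
    refine ⟨sSup c, ⟨⟨?_⟩, ?_⟩, fun z hz => le_sSup hz⟩
    · intro n hn g
      obtain ⟨U, hU, hn⟩ := (Subgroup.mem_sSup_of_directedOn ⟨y, hy⟩ hd).1 hn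
      exact (Subgroup.mem_sSup_of_directedOn ⟨y, hy⟩ hd).2 ⟨U, hU, (hc hU).1.conj_mem n hn g⟩
    · intro h
      have key : ∀ T' : Set H, T'.Finite → ∃ U ∈ c, T' ⊆ U := by
        intro T' hT'
        induction T', hT' using Set.Finite.induction_on with
        | empty => exact ⟨y, hy, Set.empty_subset _⟩
        | @insert a s _ _ ih =>
          obtain ⟨U, hU, hs⟩ := ih
          obtain ⟨V, hV, ha⟩ := (Subgroup.mem_sSup_of_directedOn ⟨y, hy⟩ hd).1
            (show a ∈ sSup c by rw [h]; trivial)
          obtain ⟨W, hW, h1, h2⟩ := hd U hU V hV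
          exact ⟨W, hW, Set.insert_subset (h2 ha) fun b hb => h1 (hs hb)⟩
      obtain ⟨U, hU, hs⟩ := key T hTf
      apply (hc hU).2
      rw [eq_top_iff, ← hT, Subgroup.closure_le]
      exact hs) ⊥ ⟨inferInstance, bot_ne_top⟩
  haveI := hN.1.1
  haveI : Nontrivial (H ⧸ N) := QuotientGroup.nontrivial_iff.2 hN.1.2
  refine ⟨H ⧸ N, inferInstance, QuotientGroup.mk' N, QuotientGroup.mk'_surjective N, ⟨?_⟩⟩
  intro U hU
  have h1 : N ≤ U.comap (QuotientGroup.mk' N) := by
    intro a ha
    show QuotientGroup.mk' N a ∈ U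
    rw [QuotientGroup.mk'_apply, (QuotientGroup.eq_one_iff a).2 ha]
    exact one_mem _
  by_cases h : U.comap (QuotientGroup.mk' N) = ⊤
  · right
    rw [eq_top_iff]
    intro a _
    obtain ⟨b, rfl⟩ := QuotientGroup.mk'_surjective N a
    show b ∈ U.comap (QuotientGroup.mk' N)
    rw [h]; trivial
  · left
    have h2 := hN.2 ⟨hU.comap _, h⟩ h1
    rw [eq_bot_iff]
    intro a ha
    obtain ⟨b, rfl⟩ := QuotientGroup.mk'_surjective N a
    exact (QuotientGroup.eq_one_iff b).2 (h2 ha)

end Vale.Agent.N194
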