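import Mathlib.Algebra.MonoidAlgebra.NoZeroDivisors
import Vale.Agent.N194.Embed
import Vale.Agent.P186.H687.Kill

/-! Groups all of whose nontrivial quotients have group algebras which are not directly finite. -/

set_option linter.all false

namespace Vale.Agent.N194

open Vale.Agent.P186

universe u v

theorem core (K : Type) [Group K] (hK : Group.FG K) :
    ∃ (H : Type) (_ : Group H) (j : K →* H), Function.Injective j ∧ Group.FG H ∧ Infinite H ∧
      (Group.IsFinitelyPresented K → Group.IsFinitelyPresented H) ∧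
      (IsHyperbolicGroup K → IsHyperbolicGroup H) ∧
      (∀ h : H, IsOfFinOrder h → ∃ a : K, orderOf a = orderOf h) ∧
      (∀ (Q : Type) [Group Q] (f : H →* Q), (∃ h, f h ≠ 1) →
        ∃ a b : MonoidAlgebra (ZMod 2) Q, a * b = 1 ∧ b * a ≠ 1) ∧
      ∀ (Q : Type v) [Group Q] (f : H →* Q), (∃ h, f h ≠ 1) →
        ∃ a b : MonoidAlgebra (ZMod 2) Q, a * b = 1 ∧ b * a ≠ 1 := by
  classical
  obtain ⟨S, σ, e1, he1, Y, htor, hlin, a, b, hab, hba⟩ :=
    Vale.Agent.P194.M.data Vale.Agent.P201.S.stmtLoc Vale.Agent.P201.S.stmtGlob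
      Vale.Agent.P201.S.stmtTor
  have hG := Hyp.hyperbolic_machine Hyp.lin Hyp.graph Hyp.conn σ e1 he1 Y hlin
  have htf : ∀ a : Vale.Agent.P201.S.Gp σ, IsOfFinOrder a → a = 1 := fun a ha => by
    obtain ⟨m, hm, e⟩ := isOfFinOrder_iff_pow_eq_one.1 ha
    exact htor a m hm e
  obtain ⟨F, hF, hk⟩ := H687.exists_finset.{v, 0} hab hba
  obtain ⟨F', hF', hk'⟩ := H687.exists_finset.{0, 0} hab hba
  obtain ⟨g₀, hg₀⟩ : F'.Nonempty := by
    by_contra h
    obtain ⟨a', b', h1, h2⟩ := hk' PUnit 1 fun g hg => absurd ⟨g, hg⟩ h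
    exact h2 (by rw [mul_comm]; exact h1)
  obtain ⟨G', _, i, g, h1, h2, h3, h4, h5⟩ := one_element _ hG htf g₀
    (fun h => hF' (h ▸ hg₀)) (F ∪ F').toList (by
      intro x hx h
      rw [Finset.mem_toList, h, Finset.mem_union] at hx
      exact hx.elim hF hF')
  obtain ⟨H, _, j, j', k1, k2, k3, k4, k5, k6, k7⟩ := embed_fg K G' hK h1 h2 g h4
  refine ⟨H, inferInstance, j, k1, k2, k3, k4, k5, k6, ?_, ?_⟩
  · rintro Q _ f ⟨h, hh⟩
    by_contra hcon
    apply hh
    have : f.ker = ⊤ := k7 f.ker inferInstance fun s => by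
      by_contra hg
      refine hcon (hk' Q ((f.comp (j' s)).comp i) fun x hx hx1 => hg ?_)
      exact h5 (f.comp (j' s)).ker inferInstance x
        (Finset.mem_toList.2 (Finset.mem_union_right _ hx)) hx1
    exact MonoidHom.mem_ker.1 (by rw [this]; trivial)
  · rintro Q _ f ⟨h, hh⟩
    by_contra hcon
    apply hh
    have : f.ker = ⊤ := k7 f.ker inferInstance fun s => by
      by_contra hg
      refine hcon (hk Q ((f.comp (j' s)).comp i) fun x hx hx1 => hg ?_)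
      exact h5 (f.comp (j' s)).ker inferInstance x
        (Finset.mem_toList.2 (Finset.mem_union_left _ hx)) hx1
    exact MonoidHom.mem_ker.1 (by rw [this]; trivial)

theorem infinite_of_pair {Q : Type} [Group Q] {a b : MonoidAlgebra (ZMod 2) Q} (hab : a * b = 1)
    (hba : b * a ≠ 1) : Infinite Q := by
  by_contra h
  haveI : Finite Q := not_infinite_iff_finite.1 h
  exact Vale.Agent.P194.H798.not_sofic hab hba H570.isSofic_of_finite

theorem fg_unit : Group.FG PUnit.{1} := Group.fg_of_finite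

theorem df2 (Γ : Type) [Group Γ] (hΓ : Group.FG Γ) :
    ∃ (H : Type) (_ : Group H) (j : Γ →* H), Function.Injective j ∧ Group.FG H ∧ Infinite H ∧
      (Group.IsFinitelyPresented Γ → Group.IsFinitelyPresented H) ∧
      (IsHyperbolicGroup Γ → IsHyperbolicGroup H) ∧
      (∀ h : H, IsOfFinOrder h → ∃ g : Γ, orderOf g = orderOf h) ∧
      ∀ (Q : Type v) [Group Q] (f : H →* Q), (∃ h, f h ≠ 1) →
        ∀ (R : Type u) [Ring R] [Nontrivial R] [CharP R 2],
          ∃ a b : MonoidAlgebra R Q, a * b = 1 ∧ b * a ≠ 1 := by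
  obtain ⟨H, _, j, k1, k2, k3, k4, k5, k6, _, k8⟩ := core.{v} Γ hΓ
  refine ⟨H, inferInstance, j, k1, k2, k3, k4, k5, k6, fun Q _ f hf R _ _ _ => ?_⟩
  obtain ⟨a, b, h1, h2⟩ := k8 Q f hf
  exact H687.base_change h1 h2 R

theorem df3 : ∃ (S : Type) (_ : Group S), IsSimpleGroup S ∧ Group.FG S ∧ Infinite S ∧
    ∀ (R : Type u) [Ring R] [Nontrivial R] [CharP R 2],
      ∃ a b : MonoidAlgebra R S, a * b = 1 ∧ b * a ≠ 1 := by
  obtain ⟨H, _, _, _, k2, k3, _, _, _, k7, _⟩ := core.{0} PUnit fg_unit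
  obtain ⟨S, _, f, hf, hS⟩ := exists_simple_quotient H k2
  obtain ⟨s, hs⟩ := exists_ne (1 : S)
  obtain ⟨h, rfl⟩ := hf s
  obtain ⟨a, b, h1, h2⟩ := k7 S f ⟨h, hs⟩
  exact ⟨S, inferInstance, hS, Group.fg_of_surjective hf, infinite_of_pair h1 h2,
    fun R _ _ _ => H687.base_change h1 h2 R⟩

theorem df1 : ¬ ∀ (K : Type) [Field K] (G : Type) [Group G] (a b : MonoidAlgebra K G),
    a * b = 1 → b * a = 1 := by
  haveI : Fact (Nat.Prime 2) := ⟨Nat.prime_two⟩
  obtain ⟨S, _, _, _, _, h⟩ := df3.{0}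
  obtain ⟨a, b, h1, h2⟩ := h (ZMod 2)
  exact fun hh => h2 (hh (ZMod 2) S a b h1)

theorem df1' : ¬ ∀ (K : Type) [Field K] (G : Type) [Group G] (n : ℕ), 1 ≤ n →
    ∀ A B : Matrix (Fin n) (Fin n) (MonoidAlgebra K G), A * B = 1 → B * A = 1 := by
  intro hh
  apply df1
  intro K _ G _ a b hab
  have h := hh K G 1 le_rfl (Matrix.of fun _ _ => a) (Matrix.of fun _ _ => b) (by
    ext i j : 2
    rw [Matrix.mul_apply, show i = j from Subsingleton.elim _ _, Matrix.one_apply_eq]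
    simpa using hab)
  have h2 := congrFun (congrFun h 0) 0
  rw [Matrix.mul_apply, Matrix.one_apply_eq] at h2
  simpa using h2

/-! ### zero divisors -/

theorem zd_of_pair {R : Type u} [Ring R] {a b : R} (hab : a * b = 1) (hba : b * a ≠ 1) :
    ∃ c d : R, c ≠ 0 ∧ d ≠ 0 ∧ c * d = 0 := by
  refine ⟨a, 1 - b * a, ?_, sub_ne_zero.2 (Ne.symm hba), ?_⟩
  · rintro rfl
    rw [zero_mul] at hab
    apply hba
    rw [mul_zero, hab]
  · rw [mul_sub, mul_one, ← mul_assoc, hab, one_mul, sub_self]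

theorem zd2 (Γ : Type) [Group Γ] (hΓ : Group.FG Γ) (htf : ∀ g : Γ, IsOfFinOrder g → g = 1) :
    ∃ (H : Type) (_ : Group H) (j : Γ →* H), Function.Injective j ∧
      (∀ h : H, IsOfFinOrder h → h = 1) ∧ Group.FG H ∧ Nontrivial H ∧
      (Group.IsFinitelyPresented Γ → Group.IsFinitelyPresented H) ∧
      (IsHyperbolicGroup Γ → IsHyperbolicGroup H) ∧
      (∀ U : Subgroup H, U.FiniteIndex → U = ⊤) ∧
      ∀ (Q : Type v) [Group Q] (f : H →* Q), (∃ h, f h ≠ 1) → ¬ UniqueProds Q ∧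
        ∀ (K : Type u) [Field K] [CharP K 2],
          (∃ a b : MonoidAlgebra K Q, a ≠ 0 ∧ b ≠ 0 ∧ a * b = 0) ∧
          ∃ e : MonoidAlgebra K Q, e * e = e ∧ e ≠ 0 ∧ e ≠ 1 := by
  haveI : Fact (Nat.Prime 2) := ⟨Nat.prime_two⟩
  obtain ⟨H, _, j, k1, k2, k3, k4, k5, k6, k7, k8⟩ := core.{v} Γ hΓ
  refine ⟨H, inferInstance, j, k1, ?_, k2, inferInstance, k4, k5, ?_, fun Q _ f hf => ?_⟩
  · intro h hh
    obtain ⟨a, ha⟩ := k6 h hh
    have h1 : a = 1 := htf a (by rw [← orderOf_pos_iff, ha, orderOf_pos_iff]; exact hh)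
    rw [h1, orderOf_one] at ha
    exact orderOf_eq_one_iff.1 ha.symm
  · intro U hU
    rw [eq_top_iff]
    intro h _
    apply U.normalCore_le
    by_contra hh
    obtain ⟨a, b, h1, h2⟩ := k7 (H ⧸ U.normalCore) (QuotientGroup.mk' _)
      ⟨h, fun e => hh ((QuotientGroup.eq_one_iff h).1 e)⟩
    exact (infinite_of_pair h1 h2).not_finite inferInstance
  · obtain ⟨a, b, h1, h2⟩ := k8 Q f hf
    constructor
    · intro hQ
      obtain ⟨c, d, h3, h4, h5⟩ := zd_of_pair h1 h2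
      exact (mul_eq_zero.1 h5).elim h3 h4
    · intro K _ _
      obtain ⟨a', b', h3, h4⟩ := H687.base_change h1 h2 K
      refine ⟨zd_of_pair h3 h4, b' * a', ?_, ?_, h4⟩
      · rw [mul_assoc, ← mul_assoc a', h3, one_mul]
      · intro h0
        have h5 : a' * (b' * a') * b' = 1 := by
          rw [← mul_assoc, h3, one_mul, h3]
        rw [h0, mul_zero, zero_mul] at h5
        exact zero_ne_one h5

theorem zd1 : ¬ ∀ (K : Type) [Field K] (G : Type) [Group G], (∀ g : G, IsOfFinOrder g → g = 1) →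
    ∀ a b : MonoidAlgebra K G, a * b = 0 → a = 0 ∨ b = 0 := by
  haveI : Fact (Nat.Prime 2) := ⟨Nat.prime_two⟩
  obtain ⟨H, _, _, _, h1, _, h2, _, _, _, h⟩ := zd2.{0, 0} PUnit fg_unit
    fun g _ => Subsingleton.elim _ _
  obtain ⟨a, b, h3, h4, h5⟩ := ((h H (MonoidHom.id H) (exists_ne 1)).2 (ZMod 2)).1
  exact fun hh => (hh (ZMod 2) H h1 a b h5).elim h3 h4

end Vale.Agent.N194
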